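import Vale.Agent.Lib.P302_h35.Check

/-!
From the checks to `OPT` and `LP` of the scaled instance.
-/

namespace Vale.Agent.Lib.P302_h35

open Finset

theorem flatMap_filter_perm {α : Type*} [DecidableEq α] {k : ℕ} (f : α → Fin k) (l : List α) :
    ((List.finRange k).flatMap (fun j => l.filter (fun i => f i = j))).Perm l := by
  rw [List.perm_iff_count]
  intro a
  rw [List.count_flatMap, ← Fin.sum_univ_def]
  have h : ∀ j : Fin k, (List.count a ∘ fun j => l.filter (fun i => f i = j)) j =
      if f a = j then l.count a else 0 := by
    intro j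
    simp only [Function.comp]
    by_cases hj : f a = j
    · rw [if_pos hj, List.count_filter (by simpa using hj)]
    · rw [if_neg hj]
      apply List.count_eq_zero_of_not_mem
      simp [hj]
  rw [Finset.sum_congr rfl (fun j _ => h j)]
  simp

/-- The scaled instance. -/
def inst (L : ℕ) (S : List ℕ) : List ℚ := S.map (fun s : ℕ => (s : ℚ) / (L : ℚ))

theorem canPack_of_packs {L k : ℕ} (hL : 0 < L) (items : List Item)
    (h : Packs (inst L (items.map Prod.fst)) k) : CanPack L k items := by
  obtain ⟨f, hf⟩ := h
  have hlen : (inst L (items.map Prod.fst)).length = items.length := by simp [inst]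
  -- transported assignment
  let e : Fin items.length ≃ Fin (inst L (items.map Prod.fst)).length := finCongr hlen.symm
  let f' : Fin items.length → Fin k := fun i => f (e i)
  have hget : ∀ i : Fin items.length,
      (inst L (items.map Prod.fst)).get (e i) = ((items.get i).1 : ℚ) / (L : ℚ) := by
    intro i
    simp only [inst, e, List.get_eq_getElem, List.getElem_map]
    rfl
  let bin : Fin k → List Item := fun j =>
    ((List.finRange items.length).filter (fun i => f' i = j)).map items.get
  refine ⟨(List.finRange k).map bin, by simp, ?_, ?_⟩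
  · intro B hB
    obtain ⟨j, _, rfl⟩ := List.mem_map.mp hB
    have h1 := hf j
    -- the sum over the filter, transported
    have h2 : ∑ i with f i = j, (inst L (items.map Prod.fst)).get i =
        ∑ i : Fin items.length with f' i = j, ((items.get i).1 : ℚ) / (L : ℚ) := by
      rw [Finset.sum_filter, Finset.sum_filter, ← Equiv.sum_comp e]
      apply Finset.sum_congr rfl
      intro i _
      simp only [f', hget]
    rw [h2] at h1
    have h3 : ∑ i : Fin items.length with f' i = j, ((items.get i).1 : ℚ) =
        ((sumS (bin j) : ℕ) : ℚ) := by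
      have hnd : ((List.finRange items.length).filter (fun i => f' i = j)).Nodup :=
        (List.nodup_finRange _).filter _
      have hfs : (Finset.univ.filter (fun i => f' i = j)) =
          ((List.finRange items.length).filter (fun i => f' i = j)).toFinset := by
        ext i; simp
      rw [hfs, List.sum_toFinset _ hnd]
      simp only [sumS, bin, List.map_map]
      have key : ∀ A : List (Fin items.length),
          (A.map (fun i => ((items.get i).1 : ℚ))).sum =
            (((A.map (Prod.fst ∘ items.get)).sum : ℕ) : ℚ) := by
        intro A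
        induction A with
        | nil => simp
        | cons a A ih =>
          simp only [List.map_cons, List.sum_cons, ih, Nat.cast_add, Function.comp]
      exact key _
    have hLq : (0 : ℚ) < L := by exact_mod_cast hL
    rw [← Finset.sum_div, h3, div_le_one hLq] at h1
    exact_mod_cast h1
  · have h1 : ((List.finRange k).map bin).flatten =
        ((List.finRange k).flatMap (fun j =>
          (List.finRange items.length).filter (fun i => f' i = j))).map items.get := by
      rw [List.map_flatMap, List.flatMap_def]
    rw [h1]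
    have h2 := (flatMap_filter_perm f' (List.finRange items.length)).map items.get
    rwa [List.map_get_finRange] at h2

theorem packs_mono {I : List ℚ} {k k' : ℕ} (hk : k ≤ k') (h : Packs I k) : Packs I k' := by
  obtain ⟨f, hf⟩ := h
  refine ⟨fun i => Fin.castLE hk (f i), ?_⟩
  intro j
  by_cases hj : ∃ j0 : Fin k, Fin.castLE hk j0 = j
  · obtain ⟨j0, rfl⟩ := hj
    have : (Finset.univ.filter fun i => Fin.castLE hk (f i) = Fin.castLE hk j0) =
        Finset.univ.filter fun i => f i = j0 := by
      ext i; simp [Fin.castLE_inj]
    rw [this]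
    exact hf j0
  · have : (Finset.univ.filter fun i => Fin.castLE hk (f i) = j) = ∅ := by
      ext i
      simp only [Finset.mem_filter, Finset.mem_univ, true_and, Finset.notMem_empty, iff_false]
      exact fun h => hj ⟨f i, h⟩
    rw [this]
    simp

theorem packs_length {I : List ℚ} (hI : ∀ a ∈ I, a ≤ 1) : Packs I I.length := by
  refine ⟨id, ?_⟩
  intro j
  have : (Finset.univ.filter fun i : Fin I.length => id i = j) = {j} := by
    ext i; simp
  rw [this]
  simpa using hI _ (List.get_mem I j)

theorem le_OPT {I : List ℚ} (hI : ∀ a ∈ I, a ≤ 1) {k : ℕ} (h : ¬ Packs I k) : k + 1 ≤ OPT I := by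
  have hne : {k | Packs I k}.Nonempty := ⟨_, packs_length hI⟩
  have hm : Packs I (OPT I) := Nat.sInf_mem hne
  by_contra hlt
  exact h (packs_mono (by omega) hm)

theorem LP_le {I : List ℚ} {v : ℝ} (h : IsFractionalCover I v) : LP I ≤ v := by
  refine csInf_le ⟨0, ?_⟩ h
  rintro w ⟨N, c, z, _, hz, _, rfl⟩
  exact Finset.sum_nonneg (fun t _ => hz t)

/-- Columns: pairs of an integer weight and a list of integer sizes. -/
abbrev Col := ℕ × List ℕ

/-- The cover check for one size. -/
def coverAt (W : ℕ) (S : List ℕ) (cols : List Col) (s : ℕ) : Bool :=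
  decide (W * S.count s ≤ (cols.map (fun c => c.1 * c.2.count s)).sum)

def colsOK (L W : ℕ) (S : List ℕ) (cols : List Col) : Bool :=
  cols.all (fun c => decide (c.2.sum ≤ L) && c.2.all (fun s => decide (s ∈ S))) &&
    S.all (coverAt W S cols)

theorem scale_inj {L : ℕ} (hL : 0 < L) : Function.Injective (fun s : ℕ => (s : ℚ) / (L : ℚ)) := by
  intro a b h
  have hLq : (L : ℚ) ≠ 0 := by
    have : (0 : ℚ) < L := by exact_mod_cast hL
    exact this.ne'
  have h' : (a : ℚ) / L = (b : ℚ) / L := h
  field_simp at h'
  exact_mod_cast h'

theorem fractionalCover_of_check {L W : ℕ} (hL : 0 < L) (hW : 0 < W) (S : List ℕ)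
    (cols : List Col) (h : colsOK L W S cols = true) :
    IsFractionalCover (inst L S) (((cols.map Prod.fst).sum : ℕ) / (W : ℝ)) := by
  simp only [colsOK, Bool.and_eq_true, List.all_eq_true, decide_eq_true_eq] at h
  obtain ⟨hc, hS⟩ := h
  have hLq : (0 : ℚ) < L := by exact_mod_cast hL
  have hWr : (0 : ℝ) < W := by exact_mod_cast hW
  have hinj := scale_inj hL
  let g : ℕ → ℚ := fun s : ℕ => (s : ℚ) / (L : ℚ)
  refine ⟨cols.length, fun t σ => ((cols.get t).2.map g).count σ,
    fun t => ((cols.get t).1 : ℝ) / (W : ℝ), ?_, ?_, ?_, ?_⟩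
  · intro t
    have hct := hc (cols.get t) (List.get_mem _ _)
    have hsub : ((cols.get t).2.map g).toFinset ⊆ (inst L S).toFinset := by
      intro x hx
      simp only [List.mem_toFinset, List.mem_map] at hx
      obtain ⟨s, hs, rfl⟩ := hx
      simp only [List.mem_toFinset, inst, List.mem_map]
      exact ⟨s, hct.2 s hs, rfl⟩
    have hsum := Finset.sum_list_count_of_subset ((cols.get t).2.map g) _ hsub
    unfold IsConfig
    have h1 : ∑ σ ∈ (inst L S).toFinset, σ * ((((cols.get t).2.map g).count σ : ℕ) : ℚ) =
        ((cols.get t).2.map g).sum := by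
      rw [hsum]
      apply Finset.sum_congr rfl
      intro x _
      rw [nsmul_eq_mul, mul_comm]
    rw [h1]
    have h2 : ((cols.get t).2.map g).sum = (((cols.get t).2.sum : ℕ) : ℚ) / (L : ℚ) := by
      generalize (cols.get t).2 = P
      induction P with
      | nil => simp
      | cons a P ih =>
        simp only [List.map_cons, List.sum_cons, ih, Nat.cast_add, g]
        ring
    rw [h2, div_le_one hLq]
    exact_mod_cast hct.1
  · intro t
    positivity
  · intro σ hσ
    simp only [List.mem_toFinset, inst, List.mem_map] at hσ
    obtain ⟨s, hs, rfl⟩ := hσ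
    have hcov := hS s hs
    simp only [coverAt, decide_eq_true_eq] at hcov
    have hcount : (inst L S).count ((s : ℚ) / (L : ℚ)) = S.count s := by
      exact List.count_map_of_injective S _ hinj s
    rw [hcount]
    have hcols : ∑ t : Fin cols.length, ((cols.get t).1 : ℝ) / (W : ℝ) *
        ((((cols.get t).2.map g).count ((s : ℚ) / (L : ℚ)) : ℕ) : ℝ) =
        (((cols.map (fun c => c.1 * c.2.count s)).sum : ℕ) : ℝ) / (W : ℝ) := by
      have h3 : ∀ t : Fin cols.length, ((cols.get t).1 : ℝ) / (W : ℝ) *
          ((((cols.get t).2.map g).count ((s : ℚ) / (L : ℚ)) : ℕ) : ℝ) =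
          (((cols.get t).1 * (cols.get t).2.count s : ℕ) : ℝ) / (W : ℝ) := by
        intro t
        have : ((cols.get t).2.map g).count ((s : ℚ) / (L : ℚ)) = (cols.get t).2.count s :=
          List.count_map_of_injective _ _ hinj s
        rw [this]
        push_cast
        ring
      rw [Finset.sum_congr rfl (fun t _ => h3 t), ← Finset.sum_div]
      congr 1
      rw [← Nat.cast_sum]
      congr 1
      generalize hcc : cols = cs
      subst hcc
      rw [Fin.sum_univ_def]
      conv_rhs => rw [← List.map_get_finRange cols]
      rw [List.map_map]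
      rfl
    rw [hcols, le_div_iff₀ hWr]
    have : ((S.count s : ℕ) : ℝ) * (W : ℝ) =
        ((W * S.count s : ℕ) : ℝ) := by push_cast; ring
    rw [this]
    exact_mod_cast hcov
  · rw [← Finset.sum_div]
    congr 1
    rw [← Nat.cast_sum]
    congr 1
    rw [Fin.sum_univ_def]
    conv_rhs => rw [← List.map_get_finRange cols]
    rw [List.map_map]
    rfl

/-- The generic statement: the checks give a lower bound on the gap of the scaled instance. -/
theorem gap_of_checks {L D W k : ℕ} (hL : 0 < L) (hW : 0 < W) (items : List Item)
    (cols : List Col)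
    (hsize : (items.all fun x => decide (0 < x.1 ∧ x.1 ≤ L)) = true)
    (h1 : dualOK D L 0 items = true)
    (h2 : refute L D k items (sumV items) = true)
    (h3 : colsOK L W (items.map Prod.fst) cols = true) :
    let I := inst L (items.map Prod.fst)
    (∀ a ∈ I, 0 < a ∧ a ≤ 1) ∧
      ((k : ℝ) + 1 - ((cols.map Prod.fst).sum : ℕ) / (W : ℝ) ≤ (OPT I : ℝ) - LP I) := by
  intro I
  have hLq : (0 : ℚ) < L := by exact_mod_cast hL
  have hval : ∀ a ∈ I, 0 < a ∧ a ≤ 1 := by
    intro a ha
    simp only [I, inst, List.mem_map, Prod.exists, exists_and_right, exists_eq_right] at ha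
    obtain ⟨s, ⟨v, hs⟩, rfl⟩ := ha
    have := List.all_eq_true.mp hsize _ hs
    simp only [decide_eq_true_eq] at this
    have h0 : (0 : ℚ) < s := by exact_mod_cast this.1
    refine ⟨div_pos h0 hLq, ?_⟩
    rw [div_le_one hLq]
    exact_mod_cast this.2
  refine ⟨hval, ?_⟩
  have hnp : ¬ Packs I k := by
    intro hp
    exact refute_sound (dualFeasible_of_check h1) k items _ (List.Subperm.refl _) rfl h2
      (canPack_of_packs hL items hp)
  have hO := le_OPT (fun a ha => (hval a ha).2) hnp
  have hLPle := LP_le (fractionalCover_of_check hL hW _ cols h3)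
  have hO' : ((k : ℝ) + 1) ≤ (OPT I : ℝ) := by exact_mod_cast hO
  linarith

end Vale.Agent.Lib.P302_h35
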