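import Vale.Agent.Lib.P302_h35.Bridge

/-!
A memoised refutation certificate: tables of residual item sets (as bit masks), level by level.
-/

namespace Vale.Agent.Lib.P302_h35

/-- Binary search trees of masks. -/
inductive MaskTree where
  | leaf : MaskTree
  | node : MaskTree → ℕ → MaskTree → MaskTree

def MaskTree.mem (x : ℕ) : MaskTree → Bool
  | .leaf => false
  | .node l m r => if x < m then MaskTree.mem x l else if m < x then MaskTree.mem x r else true

def MaskTree.allB (p : ℕ → Bool) : MaskTree → Bool
  | .leaf => true
  | .node l m r => p m && MaskTree.allB p l && MaskTree.allB p r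

theorem MaskTree.of_mem_allB {p : ℕ → Bool} {x : ℕ} (t : MaskTree)
    (h : MaskTree.allB p t = true) (hm : MaskTree.mem x t = true) : p x = true := by
  induction t with
  | leaf => simp [MaskTree.mem] at hm
  | node l m r ihl ihr =>
    simp only [MaskTree.allB, Bool.and_eq_true] at h
    obtain ⟨⟨h1, h2⟩, h3⟩ := h
    simp only [MaskTree.mem] at hm
    split_ifs at hm with h4 h5
    · exact ihl h2 hm
    · exact ihr h3 hm
    · have : x = m := by omega
      rw [this]; exact h1

/-- The sublist of `orig` selected by the bits of `m`. -/
def sel : List Item → ℕ → List Item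
  | [], _ => []
  | y :: ys, m => if m % 2 = 1 then y :: sel ys (m / 2) else sel ys (m / 2)

theorem sel_sublist (l : List Item) (m : ℕ) : (sel l m).Sublist l := by
  induction l generalizing m with
  | nil => simp [sel]
  | cons y ys ih =>
    simp only [sel]
    split_ifs
    · exact (ih _).cons_cons y
    · exact (ih _).cons y

/-- The mask of a sublist of `orig` (any result is checked afterwards). -/
def maskOf : List Item → List Item → ℕ
  | [], _ => 0
  | _ :: _, [] => 0
  | y :: ys, z :: zs =>
    if y.1 = z.1 ∧ y.2 = z.2 then 1 + 2 * maskOf ys zs else 2 * maskOf ys (z :: zs)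

def itemsBEq : List Item → List Item → Bool
  | [], [] => true
  | y :: ys, z :: zs => decide (y.1 = z.1) && decide (y.2 = z.2) && itemsBEq ys zs
  | _, _ => false

theorem eq_of_itemsBEq : ∀ {a b : List Item}, itemsBEq a b = true → a = b := by
  intro a
  induction a with
  | nil =>
    intro b h
    cases b with
    | nil => rfl
    | cons _ _ => simp [itemsBEq] at h
  | cons y ys ih =>
    intro b h
    cases b with
    | nil => simp [itemsBEq] at h
    | cons z zs =>
      simp only [itemsBEq, Bool.and_eq_true, decide_eq_true_eq] at h
      obtain ⟨⟨h1, h2⟩, h3⟩ := h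
      have : y = z := Prod.ext h1 h2
      rw [this, ih h3]

/-- Leaf test: the residual list `acc`, put back in the original order, is in the table. -/
def lookup (orig : List Item) (t : MaskTree) (acc : List Item) : Bool :=
  let l := acc.reverse
  let m := maskOf orig l
  MaskTree.mem m t && itemsBEq (sel orig m) l

/-- Entry check at level `j + 1`: the residual `sel orig m` does not fit in `j + 1` bins, given the
table `prev` for `j` bins. -/
def entryOK (L D j : ℕ) (orig : List Item) (prev : MaskTree) (m : ℕ) : Bool :=
  match sel orig m with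
  | [] => false
  | x :: xs =>
    if x.1 ≤ L then
      chooseBin D j (x.2 + sumV xs) (fun acc _ => lookup orig prev acc) (L - x.1) x.2 [] xs
    else true

/-- Level tables, highest level first; the last table is for `0` bins. -/
def certOK (L D : ℕ) (orig : List Item) : List MaskTree → Bool
  | [] => true
  | [t] => MaskTree.allB (fun m => !(sel orig m).isEmpty) t
  | t :: p :: rest =>
    MaskTree.allB (entryOK L D (rest.length) orig p) t && certOK L D orig (p :: rest)

/-- One search step: a refutation of the leaves refutes the node. -/
theorem step_sound {L D : ℕ} {orig : List Item} (hD : DualFeasible L D orig) (k : ℕ)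
    (x : Item) (xs : List Item) (cont : List Item → ℕ → Bool)
    (hsub : (x :: xs).Subperm orig)
    (hcont : ∀ acc T, acc.Subperm orig → sumV acc = T → cont acc T = true → ¬ CanPack L k acc)
    (h : x.1 ≤ L → chooseBin D k (x.2 + sumV xs) cont (L - x.1) x.2 [] xs = true) :
    ¬ CanPack L (k + 1) (x :: xs) := by
  intro hc
  obtain ⟨bins, hl, hs, hp⟩ := hc
  have hmem : x ∈ bins.flatten := hp.symm.subset (List.mem_cons_self ..)
  obtain ⟨B0, hB0, hxB⟩ := List.mem_flatten.mp hmem
  have hpb : bins.Perm (B0 :: bins.erase B0) := List.perm_cons_erase hB0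
  set R := bins.erase B0 with hR
  have hsB0 := hs B0 hB0
  have hpB0 : B0.Perm (x :: B0.erase x) := List.perm_cons_erase hxB
  set B := B0.erase x with hB
  have hsB : x.1 + sumS B ≤ L := by
    rw [← sumS_cons, ← sumS_perm hpB0]; exact hsB0
  have hxL : x.1 ≤ L := by omega
  have hpflat : (B0 ++ R.flatten).Perm (x :: xs) := by
    have h1 : (B0 :: R).flatten.Perm bins.flatten := (hpb.symm.flatten)
    exact h1.trans hp
  have hp2 : xs.Perm (B ++ R.flatten) := by
    have h1 : (x :: xs).Perm (x :: (B ++ R.flatten)) :=
      hpflat.symm.trans (hpB0.append_right _)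
    exact (List.perm_cons x).mp h1
  obtain ⟨acc', ha, hc⟩ := chooseBin_sound D k (x.2 + sumV xs) cont xs (L - x.1) x.2 [] (h hxL) B
    R.flatten hp2 (by omega)
  have ha' : acc'.Perm R.flatten := by simpa using ha
  have hRlen : R.length = k := by
    have := hpb.length_eq
    simp only [List.length_cons] at this
    omega
  have hsumT : x.2 + sumV xs = x.2 + sumV B + sumV R.flatten := by
    rw [sumV_perm hp2, sumV_append]
    omega
  have hT' : x.2 + sumV xs - (x.2 + sumV B) = sumV R.flatten := by omega
  rw [hT'] at hc
  have hRs : ∀ B' ∈ R, sumS B' ≤ L := fun B' hB' =>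
    hs B' (List.mem_of_mem_erase hB')
  have hRsub : R.flatten.Subperm orig := by
    have h1 : R.flatten.Subperm (x :: xs) := by
      have : (x :: xs).Perm (x :: (B ++ R.flatten)) := (List.perm_cons x).mpr hp2
      refine List.Subperm.trans ?_ this.symm.subperm
      exact (List.sublist_append_right _ _).subperm.trans
        ((List.sublist_cons_self x _).subperm)
    exact h1.trans hsub
  rcases hc with hc | hc
  · have := sumV_flatten_le hD R hRs hRsub
    rw [hRlen] at this
    omega
  · refine hcont acc' _ (ha'.subperm.trans hRsub) (sumV_perm ha') hc ?_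
    exact ⟨R, hRlen, hRs, ha'.symm⟩

theorem canPack_perm {L k : ℕ} {a b : List Item} (hab : a.Perm b) (h : CanPack L k a) :
    CanPack L k b := by
  obtain ⟨bins, hl, hs, hp⟩ := h
  exact ⟨bins, hl, hs, hp.trans hab⟩

/-- Soundness of the tables. -/
theorem certOK_sound {L D : ℕ} {orig : List Item} (hD : DualFeasible L D orig)
    (t : MaskTree) (rest : List MaskTree) (h : certOK L D orig (t :: rest) = true) :
    ∀ m, MaskTree.mem m t = true → ¬ CanPack L rest.length (sel orig m) := by
  induction rest generalizing t with
  | nil =>
    intro m hm hc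
    simp only [certOK] at h
    have h1 := MaskTree.of_mem_allB t h hm
    obtain ⟨bins, hl, _, hp⟩ := hc
    have hb : bins = [] := List.length_eq_zero_iff.mp hl
    subst hb
    have : sel orig m = [] := by simpa using hp.symm
    simp [this] at h1
  | cons p rest ih =>
    intro m hm
    simp only [certOK, Bool.and_eq_true] at h
    obtain ⟨h1, h2⟩ := h
    have hprev := ih p h2
    have h3 := MaskTree.of_mem_allB t h1 hm
    simp only [List.length_cons]
    have hsubp : (sel orig m).Subperm orig := (sel_sublist orig m).subperm
    unfold entryOK at h3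
    generalize hsel : sel orig m = l at h3 hsubp
    cases l with
    | nil => simp at h3
    | cons x xs =>
      simp only at h3
      refine step_sound hD rest.length x xs (fun acc _ => lookup orig p acc) hsubp ?_ ?_
      · intro acc T _ _ hlk hc
        simp only [lookup, Bool.and_eq_true] at hlk
        obtain ⟨hmem, heq⟩ := hlk
        have heq' := eq_of_itemsBEq heq
        apply hprev _ hmem
        rw [heq']
        exact canPack_perm (List.reverse_perm acc).symm hc
      · intro hx
        rw [if_pos hx] at h3
        exact h3

/-- The generic statement with a memoised certificate. -/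
theorem gap_of_cert {L D W k : ℕ} (hL : 0 < L) (hW : 0 < W) (items : List Item)
    (cols : List Col) (top : ℕ) (t : MaskTree) (rest : List MaskTree)
    (hk : rest.length = k)
    (hsize : (items.all fun x => decide (0 < x.1 ∧ x.1 ≤ L)) = true)
    (h1 : dualOK D L 0 items = true)
    (h2 : certOK L D items (t :: rest) = true)
    (h2' : MaskTree.mem top t = true)
    (h2'' : itemsBEq (sel items top) items = true)
    (h3 : colsOK L W (items.map Prod.fst) cols = true) :
    let I := inst L (items.map Prod.fst)
    (∀ a ∈ I, 0 < a ∧ a ≤ 1) ∧
      ((k : ℝ) + 1 - ((cols.map Prod.fst).sum : ℕ) / (W : ℝ) ≤ (OPT I : ℝ) - LP I) := by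
  intro I
  have hLq : (0 : ℚ) < L := by exact_mod_cast hL
  have hval : ∀ a ∈ I, 0 < a ∧ a ≤ 1 := by
    intro a ha
    simp only [I, inst, List.mem_map, Prod.exists, exists_and_right, exists_eq_right] at ha
    obtain ⟨s, ⟨v, hs⟩, rfl⟩ := ha
    have := List.all_eq_true.mp hsize _ hs
    simp only [decide_eq_true_eq] at this
    have h0 : (0 : ℚ) < s := by exact_mod_cast this.1
    refine ⟨div_pos h0 hLq, ?_⟩
    rw [div_le_one hLq]
    exact_mod_cast this.2
  refine ⟨hval, ?_⟩
  have hnp : ¬ Packs I k := by
    intro hp
    have hc := canPack_of_packs hL items hp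
    have hs := certOK_sound (dualFeasible_of_check h1) t rest h2 top h2'
    rw [hk, eq_of_itemsBEq h2''] at hs
    exact hs hc
  have hO := le_OPT (fun a ha => (hval a ha).2) hnp
  have hLPle := LP_le (fractionalCover_of_check hL hW _ cols h3)
  have hO' : ((k : ℝ) + 1) ≤ (OPT I : ℝ) := by exact_mod_cast hO
  linarith

end Vale.Agent.Lib.P302_h35
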