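import Vale.Agent.Lib.P302_h35.Cert

/-!
A cheaper memoised certificate: the search walks the item list together with the bits of the
mask and computes the mask of the residual set on the way, so leaves only do a tree lookup.
-/

namespace Vale.Agent.Lib.P302_h35

def MaskTree.memB (x : ℕ) : MaskTree → Bool
  | .leaf => false
  | .node l m r =>
    bif Nat.beq x m then true else bif Nat.ble x m then MaskTree.memB x l else MaskTree.memB x r

theorem MaskTree.of_memB_allB {p : ℕ → Bool} {x : ℕ} (t : MaskTree)
    (h : MaskTree.allB p t = true) (hm : MaskTree.memB x t = true) : p x = true := by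
  induction t with
  | leaf => simp [MaskTree.memB] at hm
  | node l m r ihl ihr =>
    simp only [MaskTree.allB, Bool.and_eq_true] at h
    obtain ⟨⟨h1, h2⟩, h3⟩ := h
    simp only [MaskTree.memB] at hm
    cases hb : Nat.beq x m with
    | true =>
      have : x = m := Nat.eq_of_beq_eq_true hb
      rw [this]; exact h1
    | false =>
      rw [hb] at hm
      cases hc : Nat.ble x m with
      | true =>
        rw [hc] at hm
        exact ihl h2 hm
      | false =>
        rw [hc] at hm
        exact ihr h3 hm

/-- Walk the rest of the list with the bits of the mask: decide which items join the bin; at the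
end the residual set has mask `keep`, and it is refuted by the budget or by the table `prev`.
`lk` is the last item kept out of the bin: an equal item later in the list stays out as well. -/
def binGo (jD T : ℕ) (prev : MaskTree) : List Item → ℕ → ℕ → ℕ → ℕ → ℕ → ℕ → ℕ → Bool
  | [], _, _, _, val, keep, _, _ =>
    bif Nat.ble (jD + val + 1) T then true else MaskTree.memB keep prev
  | y :: ys, m, bit, room, val, keep, ls, lv =>
    bif Nat.beq (m % 2) 1 then
      (bif Nat.ble y.1 room && !(Nat.beq y.1 ls && Nat.beq y.2 lv) then
          binGo jD T prev ys (m / 2) (2 * bit) (room - y.1) (val + y.2) keep ls lv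
        else true) &&
        binGo jD T prev ys (m / 2) (2 * bit) room val (keep + bit) y.1 y.2
    else binGo jD T prev ys (m / 2) (2 * bit) room val keep ls lv

/-- Skip to the first item of the mask; it opens the bin. -/
def binFirst (L jD T : ℕ) (prev : MaskTree) : List Item → ℕ → ℕ → Bool
  | [], _, _ => false
  | y :: ys, m, bit =>
    bif Nat.beq (m % 2) 1 then
      (bif Nat.ble y.1 L then binGo jD T prev ys (m / 2) (2 * bit) (L - y.1) y.2 0 (L + 1) 0 else true)
    else binFirst L jD T prev ys (m / 2) (2 * bit)

theorem sel_double (y : Item) (ys : List Item) (q : ℕ) : sel (y :: ys) (2 * q) = sel ys q := by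
  have h1 : (2 * q) % 2 ≠ 1 := by omega
  have h2 : (2 * q) / 2 = q := by omega
  simp [sel, h2]

theorem sel_double_add_one (y : Item) (ys : List Item) (q : ℕ) :
    sel (y :: ys) (1 + 2 * q) = y :: sel ys q := by
  have h1 : (1 + 2 * q) % 2 = 1 := by omega
  have h2 : (1 + 2 * q) / 2 = q := by omega
  simp [sel, h2]

theorem sel_of_odd (y : Item) (ys : List Item) (m : ℕ) (h : m % 2 = 1) :
    sel (y :: ys) m = y :: sel ys (m / 2) := by
  simp [sel, h]

theorem sel_of_not_odd (y : Item) (ys : List Item) (m : ℕ) (h : ¬ m % 2 = 1) :
    sel (y :: ys) m = sel ys (m / 2) := by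
  simp [sel, h]

theorem binGo_sound (jD T : ℕ) (prev : MaskTree) (ys : List Item) :
    ∀ (m bit room val keep ls lv : ℕ), binGo jD T prev ys m bit room val keep ls lv = true →
      ∀ B R : List Item, (sel ys m).Perm (B ++ R) → sumS B ≤ room → (ls, lv) ∉ B →
        ∃ q, (sel ys q).Perm R ∧
          (jD + (val + sumV B) + 1 ≤ T ∨ MaskTree.memB (keep + bit * q) prev = true) := by
  induction ys with
  | nil =>
    intro m bit room val keep ls lv h B R hp _ _
    have hBR : B ++ R = [] := List.perm_nil.mp (by simpa [sel] using hp.symm)
    have hB : B = [] := (List.append_eq_nil_iff.mp hBR).1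
    have hR : R = [] := (List.append_eq_nil_iff.mp hBR).2
    subst hB hR
    refine ⟨0, by simp [sel], ?_⟩
    simp only [binGo] at h
    simp only [sumV_nil, add_zero, mul_zero]
    cases hc : Nat.ble (jD + val + 1) T with
    | true => exact Or.inl (Nat.le_of_ble_eq_true hc)
    | false =>
      rw [hc] at h
      exact Or.inr h
  | cons y ys ih =>
    intro m bit room val keep ls lv h B R hp hs hl
    simp only [binGo] at h
    cases hb : Nat.beq (m % 2) 1 with
    | false =>
      rw [hb] at h
      have hodd : ¬ m % 2 = 1 := by
        intro h'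
        rw [h'] at hb
        simp at hb
      rw [sel_of_not_odd y ys m hodd] at hp
      obtain ⟨q, hq, hc⟩ := ih (m / 2) (2 * bit) room val keep ls lv h B R hp hs hl
      refine ⟨2 * q, by rwa [sel_double], ?_⟩
      have : keep + bit * (2 * q) = keep + 2 * bit * q := by ring
      rw [this]
      exact hc
    | true =>
      rw [hb] at h
      have hodd : m % 2 = 1 := Nat.eq_of_beq_eq_true hb
      rw [sel_of_odd y ys m hodd] at hp
      simp only [cond_true, Bool.and_eq_true] at h
      obtain ⟨h1, h2⟩ := h
      have hmem : y ∈ B ++ R := hp.subset (List.mem_cons_self ..)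
      by_cases hyB : y ∈ B
      · have hpB : B.Perm (y :: B.erase y) := List.perm_cons_erase hyB
        have hs' : y.1 + sumS (B.erase y) ≤ room := by
          rw [← sumS_cons, ← sumS_perm hpB]; exact hs
        have hy : y.1 ≤ room := by omega
        have hby : Nat.ble y.1 room = true := Nat.ble_eq_true_of_le hy
        have hne : (Nat.beq y.1 ls && Nat.beq y.2 lv) = false := by
          cases hc1 : Nat.beq y.1 ls with
          | false => rfl
          | true =>
            cases hc2 : Nat.beq y.2 lv with
            | false => rfl
            | true =>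
              exfalso
              apply hl
              have e1 : y.1 = ls := Nat.eq_of_beq_eq_true hc1
              have e2 : y.2 = lv := Nat.eq_of_beq_eq_true hc2
              have : y = (ls, lv) := Prod.ext e1 e2
              rw [← this]
              exact hyB
        rw [hby, hne] at h1
        simp only [Bool.not_false, Bool.and_true, cond_true] at h1
        have hp' : (sel ys (m / 2)).Perm (B.erase y ++ R) := by
          have : (y :: sel ys (m / 2)).Perm (y :: (B.erase y ++ R)) :=
            hp.trans (hpB.append_right R)
          exact (List.perm_cons y).mp this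
        obtain ⟨q, hq, hc⟩ := ih (m / 2) (2 * bit) (room - y.1) (val + y.2) keep ls lv h1
          (B.erase y) R hp' (by omega) (fun hh => hl (List.mem_of_mem_erase hh))
        refine ⟨2 * q, by rwa [sel_double], ?_⟩
        have hv : sumV B = y.2 + sumV (B.erase y) := by
          rw [sumV_perm hpB, sumV_cons]
        have hv2 : val + sumV B = val + y.2 + sumV (B.erase y) := by omega
        rw [hv2]
        have : keep + bit * (2 * q) = keep + 2 * bit * q := by ring
        rw [this]
        exact hc
      · have hyR : y ∈ R := by
          rcases List.mem_append.mp hmem with h' | h'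
          · exact absurd h' hyB
          · exact h'
        have hpR : R.Perm (y :: R.erase y) := List.perm_cons_erase hyR
        have hp' : (sel ys (m / 2)).Perm (B ++ R.erase y) := by
          have h3 : (y :: sel ys (m / 2)).Perm (y :: (B ++ R.erase y)) :=
            hp.trans ((hpR.append_left B).trans List.perm_middle)
          exact (List.perm_cons y).mp h3
        obtain ⟨q, hq, hc⟩ := ih (m / 2) (2 * bit) room val (keep + bit) y.1 y.2 h2 B (R.erase y)
          hp' hs hyB
        refine ⟨1 + 2 * q, ?_, ?_⟩
        · rw [sel_double_add_one]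
          exact ((List.perm_cons y).mpr hq).trans hpR.symm
        · have : keep + bit * (1 + 2 * q) = keep + bit + 2 * bit * q := by ring
          rw [this]
          exact hc

theorem mem_size_le {B : List Item} {x : Item} (h : x ∈ B) : x.1 ≤ sumS B := by
  induction B with
  | nil => simp at h
  | cons a B ih =>
    simp only [sumS_cons]
    rcases List.mem_cons.mp h with rfl | h'
    · omega
    · have := ih h'
      omega

/-- Generic search step. -/
theorem step_sound' {L D : ℕ} {orig : List Item} (hD : DualFeasible L D orig) (k : ℕ)
    (x : Item) (xs : List Item) (hsub : (x :: xs).Subperm orig)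
    (hleaf : ∀ B R : List Item, xs.Perm (B ++ R) → sumS B ≤ L - x.1 → x.1 ≤ L →
      (k * D + (x.2 + sumV B) + 1 ≤ x.2 + sumV xs ∨ ¬ CanPack L k R)) :
    ¬ CanPack L (k + 1) (x :: xs) := by
  intro hc
  obtain ⟨bins, hl, hs, hp⟩ := hc
  have hmem : x ∈ bins.flatten := hp.symm.subset (List.mem_cons_self ..)
  obtain ⟨B0, hB0, hxB⟩ := List.mem_flatten.mp hmem
  have hpb : bins.Perm (B0 :: bins.erase B0) := List.perm_cons_erase hB0
  set R := bins.erase B0 with hR
  have hsB0 := hs B0 hB0
  have hpB0 : B0.Perm (x :: B0.erase x) := List.perm_cons_erase hxB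
  set B := B0.erase x with hB
  have hsB : x.1 + sumS B ≤ L := by
    rw [← sumS_cons, ← sumS_perm hpB0]; exact hsB0
  have hxL : x.1 ≤ L := by omega
  have hpflat : (B0 ++ R.flatten).Perm (x :: xs) := by
    have h1 : (B0 :: R).flatten.Perm bins.flatten := (hpb.symm.flatten)
    exact h1.trans hp
  have hp2 : xs.Perm (B ++ R.flatten) := by
    have h1 : (x :: xs).Perm (x :: (B ++ R.flatten)) :=
      hpflat.symm.trans (hpB0.append_right _)
    exact (List.perm_cons x).mp h1
  have hRlen : R.length = k := by
    have := hpb.length_eq
    simp only [List.length_cons] at this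
    omega
  have hsumT : sumV xs = sumV B + sumV R.flatten := by
    rw [sumV_perm hp2, sumV_append]
  have hRs : ∀ B' ∈ R, sumS B' ≤ L := fun B' hB' =>
    hs B' (List.mem_of_mem_erase hB')
  have hRsub : R.flatten.Subperm orig := by
    have h1 : R.flatten.Subperm (x :: xs) := by
      have : (x :: xs).Perm (x :: (B ++ R.flatten)) := (List.perm_cons x).mpr hp2
      refine List.Subperm.trans ?_ this.symm.subperm
      exact (List.sublist_append_right _ _).subperm.trans
        ((List.sublist_cons_self x _).subperm)
    exact h1.trans hsub
  rcases hleaf B R.flatten hp2 (by omega) hxL with hc | hc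
  · have := sumV_flatten_le hD R hRs hRsub
    rw [hRlen] at this
    omega
  · exact hc ⟨R, hRlen, hRs, List.Perm.refl _⟩

theorem binFirst_sound {L D : ℕ} {orig : List Item} (hD : DualFeasible L D orig) (j : ℕ)
    (prev : MaskTree) (ys : List Item) :
    ∀ (m bit : ℕ), (sel ys m).Subperm orig →
      (∀ q, MaskTree.memB (bit * q) prev = true → ¬ CanPack L j (sel ys q)) →
      binFirst L (j * D) (sumV (sel ys m)) prev ys m bit = true →
      ¬ CanPack L (j + 1) (sel ys m) := by
  induction ys with
  | nil =>
    intro m bit _ _ h
    simp [binFirst] at h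
  | cons y ys ih =>
    intro m bit hsub hH h
    simp only [binFirst] at h
    cases hb : Nat.beq (m % 2) 1 with
    | false =>
      rw [hb] at h
      have hodd : ¬ m % 2 = 1 := by
        intro h'
        rw [h'] at hb
        simp at hb
      rw [sel_of_not_odd y ys m hodd] at hsub h ⊢
      refine ih (m / 2) (2 * bit) hsub ?_ h
      intro q hq
      have h2 := hH (2 * q) (by
        have : bit * (2 * q) = 2 * bit * q := by ring
        rw [this]; exact hq)
      rwa [sel_double] at h2
    | true =>
      rw [hb] at h
      have hodd : m % 2 = 1 := Nat.eq_of_beq_eq_true hb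
      rw [sel_of_odd y ys m hodd] at hsub h ⊢
      simp only [cond_true] at h
      refine step_sound' hD j y _ hsub ?_
      intro B R hp hs hyL
      have hby : Nat.ble y.1 L = true := Nat.ble_eq_true_of_le hyL
      rw [hby] at h
      simp only [cond_true] at h
      have hdummy : ((L + 1, 0) : Item) ∉ B := by
        intro hm
        have h1 := mem_size_le hm
        simp only at h1
        omega
      obtain ⟨q, hq, hc⟩ := binGo_sound (j * D) _ prev ys (m / 2) (2 * bit) (L - y.1) y.2 0 (L + 1) 0
        h B R hp hs hdummy
      rcases hc with hc | hc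
      · left
        rw [sumV_cons] at hc
        exact hc
      · right
        have h2 := hH (2 * q) (by
          have : bit * (2 * q) = 0 + 2 * bit * q := by ring
          rw [this]; exact hc)
        rw [sel_double] at h2
        intro hcan
        obtain ⟨bins, hl, hs', hp'⟩ := hcan
        exact h2 ⟨bins, hl, hs', hp'.trans hq.symm⟩

/-- Entry check for a mask in terms of `binFirst`. -/
def entryOK2 (L D j : ℕ) (orig : List Item) (prev : MaskTree) (m : ℕ) : Bool :=
  binFirst L (j * D) (sumV (sel orig m)) prev orig m 1

/-- Soundness of one level. -/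
theorem level_sound {L D : ℕ} {orig : List Item} (hD : DualFeasible L D orig) (j : ℕ)
    (t prev : MaskTree) (hprev : ∀ m, MaskTree.memB m prev = true → ¬ CanPack L j (sel orig m))
    (h : MaskTree.allB (entryOK2 L D j orig prev) t = true) :
    ∀ m, MaskTree.memB m t = true → ¬ CanPack L (j + 1) (sel orig m) := by
  intro m hm
  have h3 := MaskTree.of_memB_allB t h hm
  refine binFirst_sound hD j prev orig m 1 (sel_sublist orig m).subperm ?_ h3
  intro q hq
  rw [one_mul] at hq
  exact hprev q hq

/-- Base level. -/
theorem level_zero {L : ℕ} {orig : List Item} (t : MaskTree)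
    (h : MaskTree.allB (fun m => !(sel orig m).isEmpty) t = true) :
    ∀ m, MaskTree.memB m t = true → ¬ CanPack L 0 (sel orig m) := by
  intro m hm hc
  have h1 := MaskTree.of_memB_allB t h hm
  obtain ⟨bins, hl, _, hp⟩ := hc
  have hb : bins = [] := List.length_eq_zero_iff.mp hl
  subst hb
  have : sel orig m = [] := by simpa using hp.symm
  simp [this] at h1

/-- The generic statement, given a non-packability proof at the top. -/
theorem gap_of_noPack {L W k : ℕ} (hL : 0 < L) (hW : 0 < W) (items : List Item)
    (cols : List Col)
    (hsize : (items.all fun x => decide (0 < x.1 ∧ x.1 ≤ L)) = true)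
    (hn : ¬ CanPack L k items)
    (h3 : colsOK L W (items.map Prod.fst) cols = true) :
    let I := inst L (items.map Prod.fst)
    (∀ a ∈ I, 0 < a ∧ a ≤ 1) ∧
      ((k : ℝ) + 1 - ((cols.map Prod.fst).sum : ℕ) / (W : ℝ) ≤ (OPT I : ℝ) - LP I) := by
  intro I
  have hLq : (0 : ℚ) < L := by exact_mod_cast hL
  have hval : ∀ a ∈ I, 0 < a ∧ a ≤ 1 := by
    intro a ha
    simp only [I, inst, List.mem_map, Prod.exists, exists_and_right, exists_eq_right] at ha
    obtain ⟨s, ⟨v, hs⟩, rfl⟩ := ha
    have := List.all_eq_true.mp hsize _ hs
    simp only [decide_eq_true_eq] at this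
    have h0 : (0 : ℚ) < s := by exact_mod_cast this.1
    refine ⟨div_pos h0 hLq, ?_⟩
    rw [div_le_one hLq]
    exact_mod_cast this.2
  refine ⟨hval, ?_⟩
  have hnp : ¬ Packs I k := fun hp => hn (canPack_of_packs hL items hp)
  have hO := le_OPT (fun a ha => (hval a ha).2) hnp
  have hLPle := LP_le (fractionalCover_of_check hL hW _ cols h3)
  have hO' : ((k : ℝ) + 1) ≤ (OPT I : ℝ) := by exact_mod_cast hO
  linarith

end Vale.Agent.Lib.P302_h35
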