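import Vale.Agent.Lib.P302_h35.Defs

/-!
A kernel-checkable refutation of `Packs`, with a dual budget, and a checked fractional cover.
Items are pairs `(s, v)`: the integer size `s` (capacity `L`) and the dual value `v` (budget `D`).
-/

namespace Vale.Agent.Lib.P302_h35

abbrev Item := ℕ × ℕ

def sumS (B : List Item) : ℕ := (B.map Prod.fst).sum
def sumV (B : List Item) : ℕ := (B.map Prod.snd).sum

@[simp] theorem sumS_nil : sumS [] = 0 := rfl
@[simp] theorem sumV_nil : sumV [] = 0 := rfl
@[simp] theorem sumS_cons (x : Item) (B : List Item) : sumS (x :: B) = x.1 + sumS B := by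
  simp [sumS]
@[simp] theorem sumV_cons (x : Item) (B : List Item) : sumV (x :: B) = x.2 + sumV B := by
  simp [sumV]
theorem sumS_append (A B : List Item) : sumS (A ++ B) = sumS A + sumS B := by
  simp [sumS]
theorem sumV_append (A B : List Item) : sumV (A ++ B) = sumV A + sumV B := by
  simp [sumV]
theorem sumS_perm {A B : List Item} (h : A.Perm B) : sumS A = sumS B :=
  (h.map _).sum_eq
theorem sumV_perm {A B : List Item} (h : A.Perm B) : sumV A = sumV B :=
  (h.map _).sum_eq

/-- Every item list can be split into `k` bins of size at most `L`. -/
def CanPack (L k : ℕ) (items : List Item) : Prop :=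
  ∃ bins : List (List Item), bins.length = k ∧ (∀ B ∈ bins, sumS B ≤ L) ∧ bins.flatten.Perm items

/-- Check that every sublist of size at most `room` has value at most `D - val`. -/
def dualOK (D : ℕ) : ℕ → ℕ → List Item → Bool
  | _, val, [] => decide (val ≤ D)
  | room, val, y :: ys =>
    (if y.1 ≤ room then dualOK D (room - y.1) (val + y.2) ys else true) && dualOK D room val ys

theorem dualOK_sound (D : ℕ) (l : List Item) :
    ∀ (room val : ℕ), dualOK D room val l = true →
      ∀ B : List Item, B.Sublist l → sumS B ≤ room → val + sumV B ≤ D := by
  induction l with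
  | nil =>
    intro room val h B hB _
    have : B = [] := List.sublist_nil.mp hB
    subst this
    simpa [dualOK] using h
  | cons y ys ih =>
    intro room val h B hB hs
    simp only [dualOK, Bool.and_eq_true] at h
    obtain ⟨h1, h2⟩ := h
    cases hB with
    | cons _ hB' => exact ih room val h2 B hB' hs
    | cons_cons _ hB' =>
      rename_i B'
      simp only [sumS_cons] at hs
      have hy : y.1 ≤ room := by omega
      rw [if_pos hy] at h1
      have := ih (room - y.1) (val + y.2) h1 B' hB' (by omega)
      simp only [sumV_cons]
      omega

/-- `DualFeasible L D orig`: sub-multisets of `orig` of size at most `L` have value at most `D`. -/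
def DualFeasible (L D : ℕ) (orig : List Item) : Prop :=
  ∀ B : List Item, B.Subperm orig → sumS B ≤ L → sumV B ≤ D

theorem dualFeasible_of_check {L D : ℕ} {orig : List Item} (h : dualOK D L 0 orig = true) :
    DualFeasible L D orig := by
  intro B hB hs
  obtain ⟨B', hp, hsub⟩ := hB
  have := dualOK_sound D orig L 0 h B' hsub (by rw [sumS_perm hp]; exact hs)
  rw [← sumV_perm hp]
  omega

/-- Enumerate the ways to choose the rest of the bin from `rest`; at each leaf the new residual
list has total value `T - val`, and is refuted either by the budget or by the continuation. -/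
def chooseBin (D k T : ℕ) (cont : List Item → ℕ → Bool) :
    ℕ → ℕ → List Item → List Item → Bool
  | _, val, acc, [] =>
    if k * D < T - val then true else cont acc (T - val)
  | room, val, acc, y :: ys =>
    (if y.1 ≤ room then chooseBin D k T cont (room - y.1) (val + y.2) acc ys else true) &&
      chooseBin D k T cont room val (y :: acc) ys

/-- `refute L D k items T = true` certifies that `items` (of total value `T`) does not fit in `k`
bins. -/
def refute (L D : ℕ) : ℕ → List Item → ℕ → Bool
  | _, [], _ => false
  | 0, _ :: _, _ => true
  | k + 1, x :: xs, T =>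
    if x.1 ≤ L then
      chooseBin D k T (refute L D k) (L - x.1) x.2 [] xs
    else true

theorem chooseBin_sound (D k T : ℕ) (cont : List Item → ℕ → Bool) (ys : List Item) :
    ∀ (room val : ℕ) (acc : List Item), chooseBin D k T cont room val acc ys = true →
      ∀ B R : List Item, ys.Perm (B ++ R) → sumS B ≤ room →
        ∃ acc' : List Item, acc'.Perm (R ++ acc) ∧
          (k * D < T - (val + sumV B) ∨ cont acc' (T - (val + sumV B)) = true) := by
  induction ys with
  | nil =>
    intro room val acc h B R hp _
    have hBR : B ++ R = [] := (List.perm_nil.mp hp.symm)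
    have hB : B = [] := (List.append_eq_nil_iff.mp hBR).1
    have hR : R = [] := (List.append_eq_nil_iff.mp hBR).2
    subst hB hR
    refine ⟨acc, List.Perm.refl _, ?_⟩
    simp only [chooseBin] at h
    simp only [sumV_nil, add_zero]
    split_ifs at h with hc
    · exact Or.inl hc
    · exact Or.inr h
  | cons y ys ih =>
    intro room val acc h B R hp hs
    simp only [chooseBin, Bool.and_eq_true] at h
    obtain ⟨h1, h2⟩ := h
    have hmem : y ∈ B ++ R := hp.subset (List.mem_cons_self ..)
    rcases List.mem_append.mp hmem with hyB | hyR
    · -- y goes to the bin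
      have hpB : B.Perm (y :: B.erase y) := List.perm_cons_erase hyB
      have hs' : y.1 + sumS (B.erase y) ≤ room := by
        rw [← sumS_cons, ← sumS_perm hpB]; exact hs
      have hy : y.1 ≤ room := by omega
      rw [if_pos hy] at h1
      have hp' : ys.Perm (B.erase y ++ R) := by
        have : (y :: ys).Perm (y :: (B.erase y ++ R)) :=
          hp.trans ((hpB.append_right R))
        exact (List.perm_cons y).mp this
      obtain ⟨acc', ha, hc⟩ := ih (room - y.1) (val + y.2) acc h1 (B.erase y) R hp' (by omega)
      refine ⟨acc', ha, ?_⟩
      have hv : sumV B = y.2 + sumV (B.erase y) := by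
        rw [sumV_perm hpB, sumV_cons]
      have hv2 : val + sumV B = val + y.2 + sumV (B.erase y) := by omega
      rw [hv2]
      exact hc
    · -- y stays out
      have hpR : R.Perm (y :: R.erase y) := List.perm_cons_erase hyR
      have hp' : ys.Perm (B ++ R.erase y) := by
        have h3 : (y :: ys).Perm (y :: (B ++ R.erase y)) :=
          hp.trans ((hpR.append_left B).trans List.perm_middle)
        exact (List.perm_cons y).mp h3
      obtain ⟨acc', ha, hc⟩ := ih room val (y :: acc) h2 B (R.erase y) hp' hs
      refine ⟨acc', ?_, hc⟩
      refine ha.trans ?_
      have h4 : (R.erase y ++ y :: acc).Perm (y :: (R.erase y ++ acc)) := List.perm_middle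
      have h5 : (y :: (R.erase y ++ acc)).Perm ((y :: R.erase y) ++ acc) := List.Perm.refl _
      exact h4.trans (h5.trans (hpR.symm.append_right acc))

theorem sumV_flatten_le {L D : ℕ} {orig : List Item} (hD : DualFeasible L D orig)
    (bins : List (List Item)) (hs : ∀ B ∈ bins, sumS B ≤ L) (hsub : bins.flatten.Subperm orig) :
    sumV bins.flatten ≤ bins.length * D := by
  induction bins with
  | nil => simp
  | cons B bs ih =>
    simp only [List.flatten_cons, sumV_append, List.length_cons] at *
    have h1 : sumV B ≤ D :=
      hD B ((List.sublist_append_left _ _).subperm.trans hsub) (hs B (List.mem_cons_self ..))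
    have h2 := ih (fun B' hB' => hs B' (List.mem_cons_of_mem _ hB'))
      ((List.sublist_append_right _ _).subperm.trans hsub)
    nlinarith

theorem refute_sound {L D : ℕ} {orig : List Item} (hD : DualFeasible L D orig) (k : ℕ) :
    ∀ (items : List Item) (T : ℕ), items.Subperm orig → sumV items = T →
      refute L D k items T = true → ¬ CanPack L k items := by
  induction k with
  | zero =>
    intro items T _ _ h hc
    obtain ⟨bins, hl, _, hp⟩ := hc
    have : bins = [] := List.length_eq_zero_iff.mp hl
    subst this
    have : items = [] := by simpa using hp.symm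
    subst this
    simp [refute] at h
  | succ k ih =>
    intro items T hsub hT h hc
    cases items with
    | nil => simp [refute] at h
    | cons x xs =>
      obtain ⟨bins, hl, hs, hp⟩ := hc
      have hmem : x ∈ bins.flatten := hp.symm.subset (List.mem_cons_self ..)
      obtain ⟨B0, hB0, hxB⟩ := List.mem_flatten.mp hmem
      have hpb : bins.Perm (B0 :: bins.erase B0) := List.perm_cons_erase hB0
      set R := bins.erase B0 with hR
      have hsB0 := hs B0 hB0
      have hpB0 : B0.Perm (x :: B0.erase x) := List.perm_cons_erase hxB
      set B := B0.erase x with hB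
      have hsB : x.1 + sumS B ≤ L := by
        rw [← sumS_cons, ← sumS_perm hpB0]; exact hsB0
      have hxL : x.1 ≤ L := by omega
      simp only [refute, if_pos hxL] at h
      have hpflat : (B0 ++ R.flatten).Perm (x :: xs) := by
        have h1 : (B0 :: R).flatten.Perm bins.flatten := (hpb.symm.flatten)
        exact h1.trans hp
      have hp2 : xs.Perm (B ++ R.flatten) := by
        have h1 : (x :: xs).Perm (x :: (B ++ R.flatten)) :=
          hpflat.symm.trans (hpB0.append_right _)
        exact (List.perm_cons x).mp h1
      obtain ⟨acc', ha, hc⟩ := chooseBin_sound D k T (refute L D k) xs (L - x.1) x.2 [] h B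
        R.flatten hp2 (by omega)
      have ha' : acc'.Perm R.flatten := by simpa using ha
      have hRlen : R.length = k := by
        have := hpb.length_eq
        simp only [List.length_cons] at this
        omega
      -- total values
      have hsumT : T = x.2 + sumV B + sumV R.flatten := by
        rw [← hT, sumV_cons, sumV_perm hp2, sumV_append]
        omega
      have hT' : T - (x.2 + sumV B) = sumV R.flatten := by omega
      rw [hT'] at hc
      have hRs : ∀ B' ∈ R, sumS B' ≤ L := fun B' hB' =>
        hs B' (List.mem_of_mem_erase hB')
      have hRsub : R.flatten.Subperm orig := by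
        have h1 : R.flatten.Subperm (x :: xs) := by
          have : (x :: xs).Perm (x :: (B ++ R.flatten)) := (List.perm_cons x).mpr hp2
          refine List.Subperm.trans ?_ this.symm.subperm
          exact (List.sublist_append_right _ _).subperm.trans
            ((List.sublist_cons_self x _).subperm)
        exact h1.trans hsub
      rcases hc with hc | hc
      · have := sumV_flatten_le hD R hRs hRsub
        rw [hRlen] at this
        omega
      · refine ih acc' _ (ha'.subperm.trans hRsub) (sumV_perm ha') hc ?_
        exact ⟨R, hRlen, hRs, ha'.symm⟩

end Vale.Agent.Lib.P302_h35
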