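import Mathlib

/-!
Definitions for the cutting stock / bin packing gap: the least number of bins and the
Gilmore-Gomory configuration LP value of a list of rational item sizes.
-/

namespace Vale.Agent.Lib.P302_h35

/-- `Packs I k`: the items of the list `I` can be partitioned into `k` bins of total size at most
`1` each (`f` says which bin each item goes to). -/
def Packs (I : List ℚ) (k : ℕ) : Prop :=
  ∃ f : Fin I.length → Fin k, ∀ j : Fin k, ∑ i with f i = j, I.get i ≤ 1

/-- `OPT I`: the least number of bins into which the items of `I` can be partitioned. -/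
noncomputable def OPT (I : List ℚ) : ℕ := sInf {k | Packs I k}

/-- `IsConfig I c`: `c` assigns a nonnegative integer to each distinct size of `I` (values outside
the set of sizes play no role) and the configuration has total size at most `1`. -/
def IsConfig (I : List ℚ) (c : ℚ → ℕ) : Prop :=
  ∑ σ ∈ I.toFinset, σ * (c σ : ℚ) ≤ 1

/-- `IsFractionalCover I v`: `v` is the value `∑ z_t` of a nonnegative combination
`∑ z_t c_t` of finitely many configurations covering every size `σ` at least as often as its
multiplicity in `I`; that is, a feasible point of the Gilmore-Gomory configuration LP. -/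
def IsFractionalCover (I : List ℚ) (v : ℝ) : Prop :=
  ∃ (N : ℕ) (c : Fin N → ℚ → ℕ) (z : Fin N → ℝ),
    (∀ t, IsConfig I (c t)) ∧ (∀ t, 0 ≤ z t) ∧
    (∀ σ ∈ I.toFinset, (I.count σ : ℝ) ≤ ∑ t, z t * (c t σ : ℝ)) ∧
    ∑ t, z t = v

/-- `LP I`: the Gilmore-Gomory configuration LP value of `I`. -/
noncomputable def LP (I : List ℚ) : ℝ := sInf {v | IsFractionalCover I v}

end Vale.Agent.Lib.P302_h35
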